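import Crest.Agent.X212.H7.Defs
import Crest.Agent.X212.Bb31.Fin
import Crest.Agent.X212.Bb31.Stm
import Crest.Agent.X212.Orx52.Sw

-- ▼ part X212/H7/Reg
section

/-!
# X212/H7/Reg (helper7): caps through a regluing by an element of `KK`
-/

set_option autoImplicit false
set_option linter.unusedSectionVars false

open Set Filter Topology Function
open scoped ContDiff Manifold Crest.Agent.X212.Sym24
open Crest.Agent.R208.F Crest.Agent.X212.Dr59 Crest.Agent.X212.Cyl58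
open Crest.Agent.X212.Int54 hiding cy dt
open Crest.Agent.X212.Sep15 (EE IR CM End Box slab px Rg mem_slab slab_mono isClosed_slab)
open Crest.Agent.X212.Bb31 (Fm Df Pos Cy SP Z2 Dy AA Cap OC Clo Mt RegStmt ReStmt OE)
open Crest.Agent.X212.Sym24 (pu dT dt nc up)
open Crest.Agent.X212.Orx52 (cy ldp oriOn ori_cy same_pm same_of_pm same_trans same_symm)

noncomputable section

namespace Crest.Agent.X212.H7

variable {Y Y' : CM 3} {R R' : CM 2}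

/-! ### algebra -/

theorem rat_smul_pos {n : ℕ} {M : Type} {o c d : Fm n M} {p : M} {f : ℝ} (hf : 0 < f)
    (e : c p = f • d p) : 0 < rat o c p ↔ 0 < rat o d p := by
  rw [rat, rat, e, map_smul, smul_eq_mul, mul_div_assoc, mul_pos_iff_of_pos_left hf]

theorem aa_neg (o β : Fm 3 Y) (U : Set Y) (τ : Fm 3 Y) : AA (-o) β U (-τ) = AA o β U τ := by
  ext a
  simp only [AA, mem_ofPred_eq, mul_neg, rat_neg, rat_neg_left, neg_neg]

theorem aa_sub {o β β' τ : Fm 3 Y} {U : Set Y} (h : β' ∈ AA o β U τ) : AA o β' U τ ⊆ AA o β U τ := by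
  rintro a ⟨h1, ⟨C, c1, c2, c3⟩, h3⟩
  obtain ⟨-, ⟨D, d1, d2, d3⟩, -⟩ := h
  exact ⟨h1, ⟨C ∪ D, c1.union d1, union_subset c2 d2, fun p hp =>
    (c3 p fun k => hp (.inl k)).trans (d3 p fun k => hp (.inr k))⟩, h3⟩

theorem aa_self {o β τ : Fm 3 Y} {U : Set Y} (h : Z2 β) (h' : ∀ p ∈ U, 0 < rat o (β * τ) p) :
    β ∈ AA o β U τ := ⟨h, ⟨∅, isClosed_empty, empty_subset _, fun _ _ => rfl⟩, h'⟩

theorem aa_mono {o β τ : Fm 3 Y} {U V : Set Y} (h : β ∈ AA o β U τ) (s : V ⊆ U) :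
    AA o β V τ ⊆ AA o β U τ := by
  rintro a ⟨h1, ⟨C, c1, c2, c3⟩, h3⟩
  refine ⟨h1, ⟨C, c1, c2.trans s, c3⟩, fun p hp => ?_⟩
  by_cases k : p ∈ C
  · exact h3 p (c2 k)
  · have := h.2.2 p hp
    rwa [rat, Pi.mul_apply, ← c3 p k] at this

theorem cap_mono {P : ∀ Y : CM 3, End Y → Prop} {o : Fm 3 Y} {A A' : Set (Fm 3 Y)} (s : A' ⊆ A)
    (h : Cap P Y o A) : Cap P Y o A' :=
  let ⟨C, h1, O, h2, h3, h4⟩ := h
  ⟨C, h1, O, h2, h3, fun c ι _ ζ β a b d => h4 c ι ζ β a (fun q => s (b q)) d⟩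

theorem cap_neg {P : ∀ Y : CM 3, End Y → Prop} {o : Fm 3 Y} {A A' : Set (Fm 3 Y)}
    (s : ∀ a ∈ A', -a ∈ A) (h : Cap P Y o A) : Cap P Y o A' := by
  obtain ⟨C, h1, O, h2, h3, h4⟩ := h
  have n : ∀ {c : ℝ} {a : Fm 4 (Bb31.sh C c).X} {b : Fm 3 Y}, Bb31.En (Bb31.sh C c).j a b →
      Bb31.En (Bb31.sh C c).j (-a) (-b) := fun ⟨ε, hε, k⟩ => ⟨ε, hε, fun p hp => by
    rw [pm_neg, Pi.neg_apply, k p hp]; exact (map_neg up _).symm⟩
  refine ⟨C, h1, O, h2, h3, fun c ι _ ζ β a b d => ?_⟩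
  obtain ⟨_, rfl, v, v1, v2, la, l1, l2, l3⟩ := h4 c ι (fun q => -ζ q) (fun q => -β q)
    (fun q => (a q).neg) (fun q => s _ (b q)) fun q => n (d q)
  refine ⟨0, rfl, -v, v1.neg, neg_zero (G := Fm 3 Y) ▸ n v2, fun q => -la q,
    fun q => ⟨(l1 q).sm.neg, (l1 q).dg.neg⟩, fun q => ?_, fun q r x hx => ?_⟩
  · funext x
    have := congrFun (l2 q) x
    simp only [Sym24.sl, pm_neg, Pi.neg_apply, map_neg, Pi.zero_apply] at this ⊢
    rw [this, neg_zero]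
  · have := l3 q r x hx
    have e : ∀ q, ζ q + -v - dM (𝓡 4) (-la q) = -(-ζ q + v - dM (𝓡 4) (la q)) := fun q => by
      rw [dM_neg]; abel
    simp only [e, neg_mul_neg]
    exact this

/-! ### level preserving maps -/

theorem pb_dT {F : R' × ℝ → R × ℝ} {p : R' × ℝ} (hF : MDifferentiableAt (IR 2) (IR 2) F p)
    {g : ℝ → ℝ} {c : ℝ} (e : ∀ q, (F q).2 = g q.2) (hg : HasDerivAt g c p.2) :
    pb (mf (IR 2) (IR 2) F p : EE 2 × ℝ →ₗ[ℝ] EE 2 × ℝ) (dT (EE 2)) = c • dT (EE 2) := by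
  have h := pm_df (g := Prod.snd) hF mdifferentiableAt_snd
  rw [Sym24.df_snd, show Prod.snd ∘ F = fun q => g q.2 from funext e, Sym24.df_comp_snd hg] at h
  exact h

theorem pm_box {b : R × ℝ → Y} (hb : Box b) {F : R' × ℝ → R × ℝ} {p : R' × ℝ}
    (hF : MDifferentiableAt (IR 2) (IR 2) F p) (τ : Fm 3 Y) : pm (IR 2) (𝓡 3) (b ∘ F) τ p =
      pb (mf (IR 2) (IR 2) F p : EE 2 × ℝ →ₗ[ℝ] EE 2 × ℝ) (pm (IR 2) (𝓡 3) b τ (F p)) :=
  (pm_comp ((hb.contMDiff _).mdifferentiableAt ne0) hF).symm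

/-! ### `KK` preserves orientations -/

theorem pos_comp {o : Fm 2 R} {f g : Df R} (hf : Pos o f) (hg : Pos o g) : Pos o (f ∘ g) :=
  Orx52.Pos.comp hf hg (fun y _ => f.isLocalDiffeomorph y) (fun y _ => g.isLocalDiffeomorph y)
    (mapsTo_univ _ _)

theorem pos_neg {o : Fm 2 R} {f : R → R} (hf : Pos o f) : Pos (-o) f := Orx52.Pos.neg hf

theorem Iso.track {φ : ℝ → Df R} (h : Iso φ) {χ : ℝ → ℝ} (hχ : ContDiff ℝ ∞ χ) :
    ∃ F : (R × ℝ) ≃ₘ^∞⟮IR 2, IR 2⟯ (R × ℝ), ∀ p, F p = (φ (χ p.2) p.1, p.2) :=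
  Sep15.exists_track (φ := fun t => φ (χ t))
    (h.sm.comp ((hχ.contMDiff.comp contMDiff_snd).prodMk contMDiff_fst))
    (fun _ => (φ _).bijective) fun _ => (φ _).isLocalDiffeomorph

theorem tp_pm_cy {F : R × ℝ → R × ℝ} {p : R × ℝ} (hF : MDifferentiableAt (IR 2) (IR 2) F p)
    (e : ∀ q, (F q).2 = q.2) (o : Fm 2 R) : tp _ (pm (IR 2) (IR 2) F (cy o) p) =
      Sym24.kap (EE 2) * tp _ (pm (𝓡 2) (𝓡 2) (fun x => (F (x, p.2)).1) o p.1) := by
  rw [Orx52.pm_cy hF, show Prod.snd ∘ F = Prod.snd from funext e, Sym24.df_snd, dt, Sym24.tp_dT_mul]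
  congr 2
  have h1 : MDifferentiableAt (𝓡 2) (IR 2) (fun x : R => (x, p.2)) p.1 :=
    mdifferentiableAt_id.prodMk mdifferentiableAt_const
  have := pm_comp (a := o) (f := fun x : R => (x, p.2)) (g := Prod.fst ∘ F)
    (mdifferentiableAt_fst.comp p hF) h1
  rwa [Sym24.pm_inl] at this

theorem cy_vert {a : R × ℝ → Ext (EE 2 × ℝ)} (ha : Ori (IR 2) a) {o : Fm 2 R} (ho : Ori (𝓡 2) o)
    {s : ℝ} (h : ∀ x, 0 < tp _ (a (x, s)) * tp _ (cy o (x, s))) : SameOn a (cy o) univ :=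
  fun p _ => Orx52.same_of_pt (s := {p.1} ×ˢ univ) (oriOn ha _) (oriOn (ori_cy ho) _)
    (isPreconnected_singleton.prod isPreconnected_univ) (x := (p.1, s)) ⟨rfl, trivial⟩ (h _) p
    ⟨rfl, trivial⟩

theorem pos_of_cy {F : R × ℝ → R × ℝ} {p : R × ℝ} (hF : MDifferentiableAt (IR 2) (IR 2) F p)
    (e : ∀ q, (F q).2 = q.2) {o : Fm 2 R} :
    0 < tp _ (pm (IR 2) (IR 2) F (cy o) p) * tp _ (cy o p) ↔
      0 < tp _ (pm (𝓡 2) (𝓡 2) (fun x => (F (x, p.2)).1) o p.1) * tp _ (o p.1) := by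
  rw [tp_pm_cy hF e, Orx52.tp_cy, mul_mul_mul_comm,
    mul_pos_iff_of_pos_left (mul_self_pos.2 Sym24.kap_ne)]

theorem Iso.pos {φ : ℝ → Df R} (h : Iso φ) {o : Fm 2 R} (ho : Ori (𝓡 2) o) (t : ℝ) :
    Pos o (φ t) := fun x _ => by
  obtain ⟨F, e⟩ := h.track contDiff_id
  have m : ∀ p, MDifferentiableAt (IR 2) (IR 2) F p := fun p => F.contMDiff.mdifferentiableAt ne0
  have e' : ∀ q, (F q).2 = q.2 := fun q => by rw [e]
  have e2 : ∀ s, (fun x => (F (x, s)).1) = φ s := fun s => funext fun x => by rw [e]; rfl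
  have := cy_vert (Orx52.ori_pm (ori_cy ho) F.isLocalDiffeomorph) ho (s := 0) (fun y => by
    rw [pos_of_cy (m _) e', e2, show (φ 0 : R → R) = id from funext h.zero, pm_id]
    exact ho.same univ y trivial) (x, t) trivial
  rwa [pos_of_cy (m _) e', e2] at this

theorem KK.pos {o : Fm 2 R} (ho : Ori (𝓡 2) o) {h : Df R} (k : KK o h) : Pos o h := by
  induction k with
  | @comm h s t a b c =>
    rw [show (h : R → R) = s.symm ∘ (t.symm.trans s).trans t from funext c]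
    exact pos_comp (pos_symm a) (pos_comp (g := t.symm.trans s) b (pos_comp a (pos_symm b)))
  | @iso h φ a c =>
    rw [show (h : R → R) = φ 1 from funext c]
    exact a.pos ho 1
  | @mul f g h _ _ c a b =>
    rw [show (h : R → R) = f ∘ g from funext c]
    exact pos_comp a b

theorem KK.neg {o : Fm 2 R} {h : Df R} (k : KK o h) : KK (-o) h := by
  induction k with
  | comm s t a b c => exact .comm s t (pos_neg a) (pos_neg b) c
  | iso φ a c => exact .iso φ a c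
  | mul _ _ c a b => exact .mul a b c

/-! ### orientations through a regluing -/

variable {b : R × ℝ → Y} {h : Df R} {b' : R × ℝ → Y'}

theorem pos_px {o : Fm 2 R} (hh : Pos o h) :
    Orx52.Pos (IR 2) (IR 2) (px h) univ (cy o) (cy o) := by
  have := Orx52.Pos.cy hh (fun y _ => h.isLocalDiffeomorph y) (g := id) (g' := fun _ => 1)
    (t := univ) (fun x _ => hasDerivAt_id x) fun _ _ => one_pos
  rwa [univ_prod_univ] at this

theorem org (G : Rg b h b') {o : Fm 3 Y} {oR : Fm 2 R} (ho : Ori (𝓡 3) o) (hR : Ori (𝓡 2) oR)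
    (hc : Cy oR o b) (hh : Pos oR h) : ∃ o' : Fm 3 Y', Ori (𝓡 3) o' ∧ Cy oR o' b' ∧
      SameOn (pm (𝓡 3) (𝓡 3) G.φ o') o G.φ.source := by
  obtain ⟨-, O, k1, -, k2, k3⟩ := Orx52.exists_ori_seam G.φ (oriOn ho _) (q := fun _ : Unit => b')
    (fun _ => G.o'.loc) (ori_cy hR)
    (fun x hx => by
      rw [G.tgt, notMem_compl_iff] at hx
      exact ⟨(), Sep15.slab_subset _ _ hx⟩)
    (fun _ => Orx52.dense_ne.mono fun _ => G.b'_mem.2) fun _ p hp => by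
      have h0 := G.b'_mem.1 hp
      rcases h0.lt_or_gt with k | k
      · exact ⟨b, G.o.loc p, G.b_mem.2 h0,
          ((isOpen_lt continuous_snd continuous_const).eventually_mem k).mono
            fun q a => (G.lo q a).symm, Orx52.Pos.mono hc (subset_univ _)⟩
      · have l := (Sep15.isOE_px (IsOE.of_diffeo h.symm)).loc
        refine ⟨b ∘ px h.symm, (G.o.px h.symm).loc p, G.b_mem.2 h0,
          ((isOpen_lt continuous_const continuous_snd).eventually_mem k).mono fun q a => ?_,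
          (Orx52.Pos.comp hc (pos_px (pos_symm hh)) (fun y _ => G.o.loc y) (fun y _ => l y)
            (mapsTo_univ _ _)).mono (subset_univ _)⟩
        exact ((G.hi (px h.symm q) a).trans (by simp [px])).symm
  exact ⟨O, k1, k3 (), k2⟩

theorem pm_pm_symm (G : Rg b h b') {p : Y} (hp : p ∈ G.φ.source) (a : Fm 3 Y) :
    pm (𝓡 3) (𝓡 3) G.φ (pm (𝓡 3) (𝓡 3) G.φ.symm a) p = a p :=
  Orx52.pm_pm_inv (ldp G.φ hp) (Orx52.symm_comp G.φ hp) a

theorem exists_pre (G : Rg b h b') {s : Set ℝ} (h0 : (0 : ℝ) ∈ s) {q : Y'} (hq : q ∉ slab b' s) :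
    ∃ p ∈ G.φ.source, p ∉ slab b s ∧ G.φ p = q := by
  have h1 : q ∈ G.φ.target := G.symm.mem_of_notMem h0 hq
  refine ⟨G.φ.symm q, G.φ.map_target h1, fun k => hq ?_, G.φ.right_inv h1⟩
  rw [← G.φ.right_inv h1]
  exact (G.mem_slab (G.φ.map_target h1)).2 k

theorem exists_dy (hb : Box b) (τ : Fm 3 Y) : ∃ σ : Fm 3 Y, Dy b σ (Ioo (-1) 1) ∧
    ∀ p ∉ slab b (Ioo (-1) 1), σ p = τ p := by
  obtain ⟨A, e, -⟩ := (OE.of_oe hb).exists_pf (I := 𝓡 3) (dt (EE 2) R)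
  refine ⟨glue (slab b (Ioo (-1) 1)) A τ, fun x y hy => ⟨1, one_pos, ?_⟩, fun p hp => if_neg hp⟩
  rw [one_smul, pm_congr_right (glue_left ((mem_slab hb).2 hy))]
  exact e _ trivial

theorem i0 : (0 : ℝ) ∈ Ioo (-1 : ℝ) 1 := by norm_num
theorem i1 : (0 : ℝ) ∈ Icc (-2⁻¹ : ℝ) 2⁻¹ := by norm_num
theorem i2 : Icc (-2⁻¹ : ℝ) 2⁻¹ ⊆ Ioo (-1) 1 := Icc_subset_Ioo (by norm_num) (by norm_num)

/-- `REG*` for the class `KK` -/
theorem regK {P : ∀ Y : CM 3, End Y → Prop} (hP : Clo P) (hR : RegStmt) (hE : ReStmt)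
    [hc : PreconnectedSpace R] {oR : Fm 2 R} {h : Df R} (k : KK oR h) :
    ∀ {Y Y' : CM 3} {b : R × ℝ → Y} {b' : R × ℝ → Y'} (G : Rg b h b') {o β : Fm 3 Y} {U : Set Y}
      {τ : Fm 3 Y} {o' β' : Fm 3 Y'} {U' : Set Y'} {τ' : Fm 3 Y'},
      Mt G oR o β U τ o' β' U' τ' → Cap P Y o (AA o β U τ) → Cap P Y' o' (AA o' β' U' τ') := by
  induction k with
  | comm s t a c e =>
    intro Y Y' b b' G o β U τ o' β' U' τ' M
    exact hR P hP Y Y' R b _ b' G s t oR o β U τ o' β' U' τ' hc a c e M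
  | @iso h φ a e =>
    intro Y Y' b b' G o β U τ o' β' U' τ' M
    obtain ⟨F, eF⟩ := a.track (χ := fun y => Real.smoothTransition (2 * y))
      (Real.smoothTransition.contDiff.comp (contDiff_const.mul contDiff_id))
    obtain ⟨Ψ, e1, e2⟩ := G.exists_iso F (α := -2⁻¹) (β := 2⁻¹) (by norm_num) (by norm_num)
      (fun p => by rw [eF])
      (fun p hp => by rw [eF, Real.smoothTransition.zero_of_nonpos (by linarith), a.zero])
      fun p hp => by rw [eF, Real.smoothTransition.one_of_one_le (by linarith), px, e]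
    have m : ∀ p, MDifferentiableAt (IR 2) (IR 2) F p := fun p => F.contMDiff.mdifferentiableAt ne0
    have e3 : ∀ p ∉ slab b (Icc (-2⁻¹) 2⁻¹), ∀ c, pm (𝓡 3) (𝓡 3) Ψ c p = pm (𝓡 3) (𝓡 3) G.φ c p :=
      fun p hp c => pm_congr (eventually_of_mem
        ((isClosed_slab G.o isCompact_Icc).isOpen_compl.mem_nhds hp) e2) rfl
    have l := Ψ.isLocalDiffeomorph
    have h1 : SameOn (pm (𝓡 3) (𝓡 3) Ψ o') o univ := fun p _ => by
      by_cases hp : p ∈ slab b (Icc (-2⁻¹) 2⁻¹)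
      · obtain ⟨q, -, rfl⟩ := hp
        have n : b (q.1, 1) ∉ slab b (Icc (-2⁻¹) 2⁻¹) := by rw [mem_slab G.o]; norm_num
        refine Orx52.same_of_pt (s := b '' ({q.1} ×ˢ univ)) (oriOn (Orx52.ori_pm M.ho' l) _)
          (oriOn M.ho _) ((isPreconnected_singleton.prod isPreconnected_univ).image _
            G.o.continuous.continuousOn) (x := b (q.1, 1)) ⟨(q.1, 1), ⟨rfl, trivial⟩, rfl⟩ ?_ _
          ⟨q, ⟨rfl, trivial⟩, rfl⟩
        rw [e3 _ n]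
        exact M.ori _ (G.mem_of_notMem i1 n)
      · rw [e3 _ hp]
        exact M.ori _ (G.mem_of_notMem i1 hp)
    have h2 : ∀ p, p ∈ U ↔ Ψ p ∈ U' := fun p => by
      by_cases hp : p ∈ slab b (Ioo (-1) 1)
      · refine iff_of_true (M.sub hp) (M.sub' ?_)
        obtain ⟨q, hq, rfl⟩ := hp
        rw [e1, mem_slab G.o', eF]
        exact hq.2
      · rw [e2 p fun k => hp (slab_mono b i2 k)]
        exact M.mem p hp
    have h3 : ∀ p ∈ U, ∃ f > (0 : ℝ), pm (𝓡 3) (𝓡 3) Ψ τ' p = f • τ p := fun p hU => by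
      by_cases hp : p ∈ slab b (Ioo (-1) 1)
      · obtain ⟨⟨x, y⟩, hq, rfl⟩ := hp
        obtain ⟨f, f1, f2⟩ := M.dy x y hq.2
        obtain ⟨g, g1, g2⟩ := M.dy' (φ (Real.smoothTransition (2 * y)) x) y hq.2
        refine ⟨g / f, div_pos g1 f1, Bb31.eq_of_pm (a := pm (𝓡 3) (𝓡 3) Ψ τ') (b := (g / f) • τ)
          (G.o.loc (x, y)) ?_⟩
        rw [pm_comp ((l _).mdifferentiableAt ne0) ((G.o.contMDiff _).mdifferentiableAt ne0),
          show Ψ ∘ b = b' ∘ F from funext e1, pm_box G.o' (m _), eF, g2, map_smul,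
          pb_dT (m _) (g := id) (fun q => by rw [eF]; rfl) (hasDerivAt_id _), pm_smul, Pi.smul_apply,
          f2, one_smul, smul_smul, div_mul_cancel₀ _ f1.ne']
      · rw [e3 p fun k => hp (slab_mono b i2 k)]
        exact M.ta p hU hp
    refine hE P hP Y Y' Ψ.symm o o' _ _ (fun q _ => ?_) ?_
    · obtain ⟨p, rfl⟩ := Ψ.surjective q
      refine same_of_pm (s := univ) (fun y _ => l y) (fun y _ => ?_) _ ⟨p, trivial, rfl⟩
      rw [Orx52.pm_pm_inv (l y) (.of_forall Ψ.symm_apply_apply)]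
      exact same_symm h1 y trivial
    · rintro c ⟨c1, ⟨C, c2, c3, c4⟩, c5⟩
      refine ⟨c1.pm (Mp.of_contMDiff Ψ.contMDiff (mapsTo_univ _ _)),
        ⟨Ψ ⁻¹' C ∪ slab b (Icc (-2⁻¹) 2⁻¹), (c2.preimage Ψ.continuous).union
          (isClosed_slab G.o isCompact_Icc), union_subset (fun p hp => (h2 p).2 (c3 hp))
          ((slab_mono b i2).trans M.sub), fun p hp => ?_⟩, fun p hp => ?_⟩
      · refine (pm_congr_right (c4 _ fun k => hp (.inl k))).trans ?_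
        exact (e3 p (fun k => hp (.inr k)) _).trans (M.be p fun k => hp (.inr k))
      · obtain ⟨f, f1, f2⟩ := h3 p hp
        refine (rat_smul_pos f1 ?_).1 ((Bb31.pos_ld (l p) (h1 p trivial) _).1 (c5 _ ((h2 p).1 hp)))
        rw [pm_mul, Pi.mul_apply, f2, mul_smul_comm]
        rfl
  | @mul f g h _ kg e ih ih' =>
    intro Y Y'' b b'' G o β U τ o'' β'' U'' τ'' M hC
    obtain ⟨Y', b', G₁, G₂, e1⟩ := (G.cast (k := g.trans f) e).exists_trans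
    change ∀ y ∈ G.φ.source, G₂.φ (G₁.φ y) = G.φ y at e1
    have s : G₁.φ.source = G.φ.source := G₁.src.trans G.src.symm
    have s' : G₂.φ.source = G₁.φ.target := G₂.src.trans G₁.tgt.symm
    obtain ⟨o', o1, o2, o3⟩ := org G₁ M.ho M.hR M.cy (kg.pos M.hR)
    obtain ⟨τ', t1, t2⟩ := exists_dy G₁.o' (pm (𝓡 3) (𝓡 3) G₁.φ.symm τ)
    have key : ∀ p ∈ G₁.φ.source, ∀ c, pm (𝓡 3) (𝓡 3) G₁.φ (pm (𝓡 3) (𝓡 3) G₂.φ c) p =
        pm (𝓡 3) (𝓡 3) G.φ c p := fun p hp c => by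
      rw [pm_comp ((ldp G₂.φ (s' ▸ G₁.φ.map_source hp)).mdifferentiableAt ne0)
        ((ldp G₁.φ hp).mdifferentiableAt ne0)]
      exact pm_congr (eventually_of_mem (G.φ.open_source.mem_nhds (s ▸ hp)) e1) rfl
    have hm : ∀ p ∉ slab b (Ioo (-1) 1),
        p ∈ U ↔ G₁.φ p ∈ slab b' (Ioo (-1) 1) ∪ G₁.φ.symm ⁻¹' U := fun p hp => by
      have k := G₁.mem_of_notMem i0 hp
      rw [mem_union, G₁.mem_slab k, or_iff_right hp, mem_preimage]
      exact (congrArg (· ∈ U) (G₁.φ.left_inv k)).symm.to_iff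
    have ht : ∀ p ∉ slab b (Ioo (-1) 1), pm (𝓡 3) (𝓡 3) G₁.φ τ' p = τ p := fun p hp => by
      have k := G₁.mem_of_notMem i0 hp
      rw [pm_congr_right (t2 _ (mt (G₁.mem_slab k).1 hp)), pm_pm_symm G₁ k]
    refine ih G₂ (o := o') (β := pm (𝓡 3) (𝓡 3) G₁.φ.symm β)
      (U := slab b' (Ioo (-1) 1) ∪ G₁.φ.symm ⁻¹' U) (τ := τ')
      ⟨M.hR, o1, M.ho', o2, fun q hq => ?_, subset_union_left, M.sub', t1, M.dy', fun q hq => ?_,
        fun q hq => ?_, fun q hU hq => ?_⟩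
      (ih' G₁ ⟨M.hR, M.ho, o1, M.cy, o3, M.sub, subset_union_left, M.dy, t1, hm,
        fun p hp => pm_pm_symm G₁ (G₁.mem_of_notMem i1 hp) β,
        fun p _ hp => ⟨1, one_pos, by rw [ht p hp, one_smul]⟩⟩ hC)
    · refine same_of_pm (s := G₁.φ.source) (fun y => ldp G₁.φ) (fun p hp => ?_) q
        (G₁.φ.toPartialEquiv.image_source_eq_target.symm ▸ s' ▸ hq)
      rw [key p hp]
      exact Orx52.pos_trans (M.ori p (s ▸ hp)) (same_symm o3 p hp)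
    · obtain ⟨p, k, hp, rfl⟩ := exists_pre G₁ i0 hq
      rw [← hm p hp, e1 p (s ▸ k)]
      exact M.mem p hp
    · obtain ⟨p, k, hp, rfl⟩ := exists_pre G₁ i1 hq
      exact Bb31.eq_of_pm (ldp G₁.φ k) (by rw [key p k, pm_pm_symm G₁ k, M.be p hp])
    · obtain ⟨p, k, hp, rfl⟩ := exists_pre G₁ i0 hq
      obtain ⟨r, r1, r2⟩ := M.ta p ((hm p hp).2 hU) hp
      exact ⟨r, r1, Bb31.eq_of_pm (a := pm (𝓡 3) (𝓡 3) G₂.φ τ'') (b := r • τ') (ldp G₁.φ k)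
        (by rw [key p k, r2, pm_smul, Pi.smul_apply, ht p hp])⟩

end Crest.Agent.X212.H7
end
end

-- ▼ part X212/H7/Two

/-!
# X212/H7/Two (helper7): two caps along the tower
-/

set_option autoImplicit false
set_option linter.unusedSectionVars false

open Set Filter Topology Function
open scoped ContDiff Manifold Crest.Agent.X212.Sym24
open Crest.Agent.R208.F Crest.Agent.X212.Dr59 Crest.Agent.X212.Cyl58
open Crest.Agent.X212.Int54 hiding cy dt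
open Crest.Agent.X212.Sep15 (EE IR CM End Box slab px Rg mem_slab slab_mono isClosed_slab)
open Crest.Agent.X212.Bb31 (Fm Df Pos Cy SP Z2 Dy AA Cap OC Clo Mt RegStmt ReStmt KillStmt OE)
open Crest.Agent.X212.Sym24 (pu dT dt nc up)
open Crest.Agent.X212.Orx52 (cy ldp oriOn ori_cy same_pm same_of_pm same_trans same_symm)
open Crest.Agent.X212.Line51 (ang)

noncomputable section

namespace Crest.Agent.X212.H7

variable {Y Y' : CM 3} {R : CM 2} {b : R × ℝ → Y} {h : Df R} {b' : R × ℝ → Y'}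

/-! ### reversing the height -/

/-- `h × (-1)` -/
def fl (h : Df R) : (R × ℝ) ≃ₘ^∞⟮IR 2, IR 2⟯ (R × ℝ) :=
  h.prodCongr (ContinuousLinearEquiv.neg ℝ : ℝ ≃L[ℝ] ℝ).toDiffeomorph

theorem fl_apply (h : Df R) (p : R × ℝ) : fl h p = (h p.1, -p.2) := rfl

theorem box_fl (hb : Box b) (h : Df R) : Box (b ∘ fl h) := IsOE.comp hb (IsOE.of_diffeo _)

theorem slab_fl (b : R × ℝ → Y) (h : Df R) {s : Set ℝ} (hs : ∀ y ∈ s, -y ∈ s) :
    slab (b ∘ fl h) s = slab b s := by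
  refine Subset.antisymm ?_ ?_
  · rintro _ ⟨p, hp, rfl⟩
    exact ⟨_, ⟨trivial, hs _ hp.2⟩, rfl⟩
  · rintro _ ⟨p, hp, rfl⟩
    exact ⟨(h.symm p.1, -p.2), ⟨trivial, hs _ hp.2⟩, by simp [fl_apply]⟩

theorem n0 : ∀ y ∈ ({0} : Set ℝ), -y ∈ ({0} : Set ℝ) := by simp
theorem no {a : ℝ} : ∀ y ∈ Ioo (-a) a, -y ∈ Ioo (-a) a := fun _ h => ⟨neg_lt_neg h.2, neg_lt.1 h.1⟩
theorem nc' {a : ℝ} : ∀ y ∈ Icc (-a) a, -y ∈ Icc (-a) a := fun _ h => ⟨neg_le_neg h.2, neg_le.1 h.1⟩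

/-- the identity -/
abbrev one (R : CM 2) : Df R := Diffeomorph.refl (𝓡 2) R ∞

/-- the regluing seen upside down -/
def flip (G : Rg b h b') : Rg (b ∘ fl (one R)) h.symm (b' ∘ fl h) where
  o := box_fl G.o _
  o' := box_fl G.o' _
  φ := G.φ
  src := by rw [slab_fl _ _ n0, G.src]
  tgt := by rw [slab_fl _ _ n0, G.tgt]
  lo p hp := G.hi (p.1, -p.2) (neg_pos.2 hp)
  hi p hp := (G.lo (p.1, -p.2) (neg_neg_of_pos hp)).trans (by simp [fl_apply, px])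

theorem md_fl (h : Df R) (p : R × ℝ) : MDifferentiableAt (IR 2) (IR 2) (fl h) p :=
  (fl h).contMDiff.mdifferentiableAt ne0

theorem pb_fl (h : Df R) (p : R × ℝ) :
    pb (mf (IR 2) (IR 2) (fl h) p : EE 2 × ℝ →ₗ[ℝ] EE 2 × ℝ) (dT (EE 2)) = -dT (EE 2) := by
  rw [pb_dT (md_fl h p) (g := Neg.neg) (fun _ => rfl) (hasDerivAt_neg _), neg_one_smul]

theorem pb_fl_up (p : R × ℝ) (a : Fm 2 R) :
    pb (mf (IR 2) (IR 2) (fl (one R)) p : EE 2 × ℝ →ₗ[ℝ] EE 2 × ℝ) (up (a p.1)) = up (a p.1) := by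
  have := pm_comp (a := a) (g := Prod.fst) mdifferentiableAt_fst (md_fl (one R) p)
  rwa [show Prod.fst ∘ fl (one R) = Prod.fst from rfl, Sym24.pm_fst] at this

theorem dy_fl (hb : Box b) (h : Df R) {τ : Fm 3 Y} (d : Dy b τ (Ioo (-1) 1)) :
    Dy (b ∘ fl h) (-τ) (Ioo (-1) 1) := fun x y hy => by
  obtain ⟨f, f1, f2⟩ := d (h x) (-y) (no y hy)
  refine ⟨f, f1, ?_⟩
  rw [pm_neg, Pi.neg_apply, pm_box hb (md_fl h _), fl_apply, f2, map_smul, pb_fl, smul_neg, neg_neg]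

theorem cy_fl (hb : Box b) {oR : Fm 2 R} {o : Fm 3 Y} (c : Cy oR o b) :
    Cy oR (-o) (b ∘ fl (one R)) := fun p _ => by
  have h1 := same_pm c (fun y _ => (fl (one R)).isLocalDiffeomorph y) (mapsTo_univ _ univ) p trivial
  have h2 : pm (IR 2) (IR 2) (fl (one R)) (dt (EE 2) R * pu oR) p = -(dt (EE 2) R * pu oR) p := by
    rw [pm_apply, Pi.mul_apply, map_mul]
    exact (congrArg₂ (· * ·) (pb_fl _ p) (pb_fl_up p oR)).trans (neg_mul _ _)
  rw [h2, map_neg] at h1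
  rw [pm_neg, Pi.neg_apply, pm_box hb (md_fl _ _), map_neg, neg_mul_comm]
  exact h1

theorem Kl.neg {oR ν : Fm 2 R} (k : Kl oR ν) : Kl oR (-ν) := by
  obtain ⟨h0, θ, θ₁, t, h1, h2, h3, h4, h5⟩ := k
  refine ⟨h0.neg, -θ, -θ₁, t, h1.neg, fun x hx => ?_, h3, h4.neg, ?_⟩
  · rw [neg_mul_neg]
    exact h2 x (neg_ne_zero.1 hx)
  · convert h5.neg using 1
    rw [pm_neg]
    abel

theorem Kl.neg' {oR ν : Fm 2 R} (k : Kl oR ν) : Kl (-oR) ν := by
  obtain ⟨h0, θ, θ₁, t, h1, h2, h3, h4, h5⟩ := k.neg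
  refine ⟨k.1, θ, θ₁, t, h1, fun x hx => ?_, pos_neg h3, h4, h5⟩
  have := h2 x (neg_ne_zero.2 hx)
  rwa [mul_neg, rat_neg, ← rat_neg_left] at this

theorem kl_zero {oR : Fm 2 R} (ho : Ori (𝓡 2) oR) : Kl oR 0 :=
  ⟨Dg.zero, 0, 0, one R, Cl.zero, fun _ h => (h rfl).elim, (KK.refl oR).pos ho, Cl.zero,
    by simpa using Ex.zero⟩

/-! ### one step -/

/-- the data of one step -/
structure Sd (G : Rg b h b') (oR ν : Fm 2 R) (o β : Fm 3 Y) (U : Set Y) (τ : Fm 3 Y)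
    (o' β' : Fm 3 Y') (U' : Set Y') (τ' : Fm 3 Y') : Prop where
  hR : Ori (𝓡 2) oR
  ho : Ori (𝓡 3) o
  ho' : Ori (𝓡 3) o'
  kk : KK oR h
  kl : Kl oR ν
  cy : Cy oR o b
  ori : SameOn (pm (𝓡 3) (𝓡 3) G.φ o') o G.φ.source
  mem : β ∈ AA o β U τ
  sm : Sm (𝓡 3) U τ
  sub : slab b (Icc (-1) 1) ⊆ U
  hel : ∃ k : R × ℝ → ℝ, (∀ p, 0 < k p) ∧ ∀ x, ∀ y ∈ Ioo (-1 : ℝ) 1,
    pm (IR 2) (𝓡 3) b τ (x, y) = k (x, y) • dT (EE 2) + pu ν (x, y)
  sub' : slab b' (Ioo (-1) 1) ⊆ U'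
  dy' : Dy b' τ' (Ioo (-1) 1)
  be : ∀ p ∉ slab b (Icc (-2⁻¹) 2⁻¹), pm (𝓡 3) (𝓡 3) G.φ β' p = β p
  ta : ∀ p ∉ slab b (Ioo (-1) 1), G.φ p ∈ U' →
    p ∈ U ∧ ∃ f > (0 : ℝ), pm (𝓡 3) (𝓡 3) G.φ τ' p = f • τ p

variable {G : Rg b h b'} {oR ν : Fm 2 R} {o β : Fm 3 Y} {U : Set Y} {τ : Fm 3 Y}
  {o' β' : Fm 3 Y'} {U' : Set Y'} {τ' : Fm 3 Y'} {P : ∀ Y : CM 3, End Y → Prop}

theorem Sd.flip (D : Sd G oR ν o β U τ o' β' U' τ') :
    Sd (flip G) oR (-ν) (-o) β U (-τ) (-o') β' U' (-τ') where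
  hR := D.hR
  ho := Orx52.ori_neg D.ho
  ho' := Orx52.ori_neg D.ho'
  kk := D.kk.symm
  kl := D.kl.neg
  cy := cy_fl G.o D.cy
  ori := Orx52.Pos.neg D.ori
  mem := (aa_neg o β U τ).symm ▸ D.mem
  sm := D.sm.neg
  sub := (slab_fl b _ nc').symm ▸ D.sub
  hel := by
    obtain ⟨k, k1, k2⟩ := D.hel
    refine ⟨fun p => k (p.1, -p.2), fun _ => k1 _, fun x y hy => ?_⟩
    rw [pm_neg, Pi.neg_apply, pm_box G.o (md_fl _ _), show fl (one R) (x, y) = (x, -y) from rfl,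
      k2 x _ (no y hy), map_add, map_smul, pb_fl, smul_neg, neg_add, neg_neg]
    exact congrArg _ ((congrArg Neg.neg (pb_fl_up (x, y) ν)).trans (map_neg up _).symm)
  sub' := (slab_fl b' _ no).symm ▸ D.sub'
  dy' := dy_fl G.o' h D.dy'
  be := fun p hp => D.be p (slab_fl b (one R) nc' ▸ hp)
  ta := fun p hp hU => by
    obtain ⟨h1, f, f1, f2⟩ := D.ta p (slab_fl b (one R) no ▸ hp) hU
    exact ⟨h1, f, f1, by rw [pm_neg, Pi.neg_apply, Pi.neg_apply, smul_neg]; exact congrArg _ f2⟩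

theorem Sd.side (hP : Clo P) (hR : RegStmt) (hE : ReStmt) (hK : KillStmt) [hc : PreconnectedSpace R]
    (D : Sd G oR ν o β U τ o' β' U' τ') (C : Cap P Y o (AA o β U τ)) :
    Cap P Y' o' (AA o' β' U' τ') := by
  obtain ⟨σ, s1, s2⟩ := exists_dy G.o τ
  obtain ⟨k, k1, k2⟩ := D.hel
  obtain ⟨h0, θ, θ₁, t, h1, h2, h3, h4, h5⟩ := D.kl
  refine regK hP hR hE D.kk G (o := o) (β := β) (U := slab b (Ioo (-1) 1) ∪ G.φ ⁻¹' U') (τ := σ)
    ⟨D.hR, D.ho, D.ho', D.cy, D.ori, subset_union_left, D.sub', s1, D.dy',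
      fun p hp => or_iff_right hp, D.be, fun p hU hp => ?_⟩
    (hK P hP Y R o β τ σ U _ oR ν θ θ₁ b k t hc D.ho D.hR G.o D.cy D.mem D.sm D.sub (fun p hp => ?_)
      subset_union_left s1 (fun p _ hp => ⟨1, one_pos, by rw [s2 p hp, one_smul]⟩) h0 h1 h2 k1 k2
      h3 h4 h5 C)
  · rw [s2 p hp]
    exact (D.ta p hp (hU.resolve_left hp)).2
  · by_cases k : p ∈ slab b (Ioo (-1) 1)
    · exact D.sub (slab_mono b Ioo_subset_Icc_self k)
    · exact (D.ta p k (hp.resolve_left k)).1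

theorem Sd.mem' (D : Sd G oR ν o β U τ o' β' U' τ') (c : Cy oR o' b') (z : Z2 β')
    (s : SP oR b' β' (Icc (-1) 1)) : β' ∈ AA o' β' U' τ' := aa_self z fun q hq => by
  by_cases k : q ∈ slab b' (Ioo (-1) 1)
  · obtain ⟨⟨x, y⟩, hy, rfl⟩ := k
    obtain ⟨f, f1, f2⟩ := D.dy' x y hy.2
    exact (Bb31.pos_box' G.o' c f1 f2 (z.dg _ trivial)).2 (s x y (Ioo_subset_Icc_self hy.2))
  · obtain ⟨p, k', hp, rfl⟩ := exists_pre G i0 k
    obtain ⟨h1, f, f1, f2⟩ := D.ta p hp hq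
    refine (Bb31.pos_ld (ldp G.φ k') (D.ori p k') _).2 ((rat_smul_pos f1 ?_).2 (D.mem.2.2 p h1))
    rw [pm_mul, Pi.mul_apply, f2, mul_smul_comm, D.be p fun k => hp (slab_mono b i2 k)]
    rfl

theorem Two.mono {V : Set Y} (T : Two P Y o β U τ) (s : V ⊆ U) : Two P Y o β V τ :=
  ⟨aa_self T.1.1 fun p hp => T.1.2.2 p (s hp), cap_mono (aa_mono T.1 s) T.2.1,
    cap_mono (aa_mono T.1 s) T.2.2⟩

theorem Two.change {β₁ : Fm 3 Y} (T : Two P Y o β U τ) (s : β₁ ∈ AA o β U τ) : Two P Y o β₁ U τ :=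
  ⟨aa_self s.1 s.2.2, cap_mono (aa_sub s) T.2.1, cap_mono (aa_sub s) T.2.2⟩

theorem Sd.two (hP : Clo P) (hR : RegStmt) (hE : ReStmt) (hK : KillStmt) [PreconnectedSpace R]
    (D : Sd G oR ν o β U τ o' β' U' τ') (c : Cy oR o' b') (z : Z2 β')
    (s : SP oR b' β' (Icc (-1) 1)) (T : Two P Y o β U τ) : Two P Y' o' β' U' τ' :=
  ⟨D.mem' c z s, D.side hP hR hE hK T.2.1,
    aa_neg o' β' U' τ' ▸ D.flip.side hP hR hE hK ((aa_neg o β U τ).symm ▸ T.2.2)⟩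

theorem cy_or [PreconnectedSpace R] (hb : Box b) (ho : Ori (𝓡 3) o) (hR : Ori (𝓡 2) oR) :
    Cy oR o b ∨ Cy oR (-o) b :=
  Orx52.pos_or isPreconnected_univ (oriOn (ori_cy hR) _) (oriOn ho univ) (fun y _ => hb.loc y)
    (mapsTo_univ _ _)

theorem cy_neg (c : Cy oR (-o) b) : Cy (-oR) o b := fun p hp => by
  have := c p hp
  rw [pm_neg, Pi.neg_apply, map_neg, neg_mul_comm, Orx52.tp_cy, ← mul_neg, ← map_neg] at this
  rwa [Orx52.tp_cy]

theorem same_of_symm (k : SameOn (pm (𝓡 3) (𝓡 3) G.φ.symm o) o' G.φ.target) :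
    SameOn (pm (𝓡 3) (𝓡 3) G.φ o') o G.φ.source := fun p hp => by
  have := same_pm k (fun _ => ldp G.φ) G.φ.mapsTo p hp
  rwa [pm_pm_symm G hp, mul_comm] at this

theorem pm_cay {Φ : Y → Circle} (hb : Box b) (hΦ : ContMDiff (𝓡 3) (𝓡 1) ∞ Φ)
    (e : ∀ p, Φ (b p) = cay p.2) (p : R × ℝ) :
    pm (IR 2) (𝓡 3) b (ang (𝓡 3) Φ) p = (2 * (1 / (1 + p.2 ^ 2))) • dT (EE 2) := by
  rw [Line51.pm_ang (hΦ _) ((hb.contMDiff _).mdifferentiableAt ne0),
    show Φ ∘ b = fun p => Circle.exp (Real.pi + 2 * Real.arctan p.2) from funext e,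
    Line51.ang_exp (f := fun p : R × ℝ => Real.pi + 2 * Real.arctan p.2) (((contDiff_const.add (contDiff_const.mul Real.contDiff_arctan)).contMDiff.comp
      contMDiff_snd) p)]
  exact Sym24.df_comp_snd (((Real.hasDerivAt_arctan p.2).const_mul 2).const_add _)

theorem dy_cay {Φ : Y → Circle} (hb : Box b) (hΦ : ContMDiff (𝓡 3) (𝓡 1) ∞ Φ)
    (e : ∀ p, Φ (b p) = cay p.2) (s : Set ℝ) : Dy b (ang (𝓡 3) Φ) s :=
  fun x y _ => ⟨_, by positivity, pm_cay hb hΦ e (x, y)⟩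

/-- the model of `R × S¹` -/
abbrev IP := (𝓡 2).prod (𝓡 1)

/-- the two caps of the product -/
theorem two_prod (hB : BaseQ P) [hc : PreconnectedSpace R] (g3 : ∃ o₀ : Fm 2 R, Ori (𝓡 2) o₀ ∧ G3 o₀)
    (f : (R × Circle) ≃ₘ^∞⟮IP, 𝓡 3⟯ Y) (hb : Box fun p : R × ℝ => f (p.1, cay p.2))
    (hR : Ori (𝓡 2) oR) : ∃ o β : Fm 3 Y, Ori (𝓡 3) o ∧ Cy oR o (fun p => f (p.1, cay p.2)) ∧
      SP oR (fun p => f (p.1, cay p.2)) β (Icc (-1) 1) ∧
      Two P Y o β univ (ang (𝓡 3) fun p => (f.symm p).2) := by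
  obtain ⟨C, B, rfl⟩ := Sep15.bsStmt R Y f
  set τ := ang (𝓡 3) fun p => (B.f.symm p).2
  have sΦ : ContMDiff (𝓡 3) (𝓡 1) ∞ fun p => (B.f.symm p).2 := contMDiff_snd.comp B.f.symm.contMDiff
  have m : ∀ p, MDifferentiableAt IP (𝓡 3) B.f p := fun p => B.f.contMDiff.mdifferentiableAt ne0
  have e : ∀ p, pm IP (𝓡 3) B.f τ p = pm IP (𝓡 1) Prod.snd Orx52.oC p := fun p => by
    rw [Line51.pm_ang (sΦ _) (m p), Orx52.oC, Line51.pm_ang contMDiffAt_id mdifferentiableAt_snd]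
    exact congrArg (ang IP · p) (funext fun q => by simp)
  have k : ∀ {a : Fm 2 R}, Ori (𝓡 2) a → ∀ β, Cap P Y (pm (𝓡 3) IP B.f.symm (Orx52.pr a Orx52.oC))
      (AA (pm (𝓡 3) IP B.f.symm (Orx52.pr a Orx52.oC)) β univ τ) := fun {a} ha β =>
    hB Y R C B _ β τ a hc g3 (Orx52.ori_pm (Orx52.ori_pr ha Orx52.ori_oC) B.f.symm.isLocalDiffeomorph)
      ha (fun p _ => by
        rw [Orx52.pm_pm_inv (B.f.isLocalDiffeomorph p) (.of_forall B.f.symm_apply_apply)]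
        exact mul_self_pos.2 ((Orx52.ori_pr ha Orx52.ori_oC).ne p))
      fun p => ⟨1, one_pos, by rw [e, one_smul]⟩
  set O := pm (𝓡 3) IP B.f.symm (Orx52.pr oR Orx52.oC)
  have hO : Ori (𝓡 3) O := Orx52.ori_pm (Orx52.ori_pr hR Orx52.ori_oC) B.f.symm.isLocalDiffeomorph
  have k' : ∀ β, Cap P Y (-O) (AA (-O) β univ τ) := fun β => by
    have := k (Orx52.ori_neg hR) β
    rwa [show Orx52.pr (-oR) Orx52.oC = -Orx52.pr oR Orx52.oC by
      rw [Orx52.pr_eq (𝓡 2) (𝓡 1), Orx52.pr_eq (𝓡 2) (𝓡 1), pm_neg, neg_mul], pm_neg] at this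
  have n : ∀ {o β a : Fm 3 Y}, a ∈ AA o β univ τ → -a ∈ AA (-o) β univ τ := fun h =>
    ⟨h.1.neg, ⟨univ, isClosed_univ, Subset.rfl, fun _ h => (h trivial).elim⟩, fun p hp => by
      rw [neg_mul, rat_neg, rat_neg_left, neg_neg]; exact h.2.2 p hp⟩
  let a := dp 2 oR
  have ta : ∀ x, tp _ (a x) = tp _ (oR x) := fun x => by
    have := Orx52.tp_dp oR x
    rwa [finrank_euclideanSpace_fin] at this
  have ha : Ori (𝓡 2) a := ⟨fun x => (hR.sm x).dp 2, fun x => ta x ▸ hR.ne x⟩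
  have da : Dg 2 univ a := fun _ _ => R208.T.isDeg_dpl _ _
  have ca : Cl (𝓡 2) 2 univ a := ⟨fun x _ => ha.sm x, da, fun x _ =>
    Sym24.eq_zero_of_deg (Dg.dM isOpen_univ da x trivial) (by simp)⟩
  have s1 : ContMDiff (𝓡 3) (𝓡 2) ∞ fun p => (B.f.symm p).1 := contMDiff_fst.comp B.f.symm.contMDiff
  let β := pm (𝓡 3) (𝓡 2) (fun p => (B.f.symm p).1) a
  have z : Z2 β := ca.pm (Mp.of_contMDiff s1 (mapsTo_univ _ _))
  have sp : ∀ s, SP oR (fun p => B.f (p.1, cay p.2)) β s := fun s x y _ => by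
    have : pm (IR 2) (𝓡 3) (fun p : R × ℝ => B.f (p.1, cay p.2)) β = pu a := funext fun p => by
      rw [pm_comp ((s1 _).mdifferentiableAt ne0) ((hb.contMDiff p).mdifferentiableAt ne0),
        ← Sym24.pm_fst (I := 𝓡 2)]
      exact congrArg (pm (IR 2) (𝓡 2) · a p) (funext fun q => by simp)
    rw [this, Sym24.sl_pu, rat, ta, div_self (hR.ne x)]
    exact one_pos
  have mem : ∀ {o : Fm 3 Y}, Ori (𝓡 3) o → Cy oR o (fun p => B.f (p.1, cay p.2)) →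
      β ∈ AA o β univ τ := fun {o} ho c => aa_self z fun p _ => by
    have : PreconnectedSpace Y := B.f.surjective.denseRange.preconnectedSpace B.f.continuous
    have hO' : Ori (𝓡 3) (β * τ) := ⟨fun q => (z.sm q trivial).mul (Line51.smAt_ang (sΦ q)), fun q => by
      obtain ⟨q, rfl⟩ := B.f.surjective q
      have h1 := (Orx52.ori_pr ha Orx52.ori_oC).ne q
      rw [Orx52.pr_eq (𝓡 2) (𝓡 1), Pi.mul_apply, ← e,
        show pm IP (𝓡 2) Prod.fst a q = pm IP (𝓡 3) B.f β q by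
          rw [pm_comp ((s1 _).mdifferentiableAt ne0) (m q)]
          exact congrArg (pm IP (𝓡 2) · a q) (funext fun q => by simp),
        ← Pi.mul_apply, ← pm_mul, Orx52.tp_ld (B.f.isLocalDiffeomorph q)] at h1
      exact right_ne_zero_of_mul h1⟩
    refine Orx52.pos_rat.2 (Orx52.same_of_pt (oriOn ho _) (oriOn hO' _) isPreconnected_univ
      (x := B.f ((B.f.symm p).1, cay 0)) trivial (Orx52.pos_rat.1 ?_) p trivial)
    exact (Bb31.pos_box' hb c (by positivity) (pm_cay hb sΦ (by simp) ((B.f.symm p).1, 0))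
      (z.dg _ trivial)).2 (sp univ _ _ trivial)
  rcases cy_or hb hO hR with c | c
  · exact ⟨O, β, hO, c, sp _, mem hO c, k hR β, cap_neg (fun _ => n) (k' β)⟩
  · exact ⟨-O, β, Orx52.ori_neg hO, c, sp _, mem (Orx52.ori_neg hO) c, k' β,
      (neg_neg O).symm ▸ cap_neg (fun _ h => by have := n h; rwa [neg_neg] at this) (k hR β)⟩

theorem KK.or {a : Fm 2 R} (k : KK oR h) (e : a = oR ∨ a = -oR) : KK a h :=
  e.elim (· ▸ k) (· ▸ k.neg)

theorem exists_cy [PreconnectedSpace R] (hb : Box b) (ho : Ori (𝓡 3) o) (hR : Ori (𝓡 2) oR) :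
    ∃ a, (a = oR ∨ a = -oR) ∧ Ori (𝓡 2) a ∧ Cy a o b :=
  (cy_or hb ho hR).elim (fun c => ⟨_, .inl rfl, hR, c⟩) fun c =>
    ⟨_, .inr rfl, Orx52.ori_neg hR, cy_neg c⟩

theorem same_pos (hs : IsPreconnected G.φ.source) (ho : Ori (𝓡 3) o) (ho' : Ori (𝓡 3) o')
    (c : Cy oR o b) (c' : Cy oR o' b') (x : R) :
    SameOn (pm (𝓡 3) (𝓡 3) G.φ o') o G.φ.source ∧ Pos oR h := by
  have md : ∀ p : R × ℝ, p.2 ≠ 0 → pm (IR 2) (𝓡 3) b (pm (𝓡 3) (𝓡 3) G.φ o') p =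
      pm (IR 2) (𝓡 3) (G.φ ∘ b) o' p := fun p hp => pm_comp
    ((ldp G.φ (G.b_mem.2 hp)).mdifferentiableAt ne0) ((G.o.contMDiff p).mdifferentiableAt ne0)
  have h1 : SameOn (pm (𝓡 3) (𝓡 3) G.φ o') o G.φ.source := by
    refine Orx52.same_of_pt ((oriOn ho' univ).pm (fun _ => ldp G.φ) (mapsTo_univ _ _)) (oriOn ho _) hs
      (x := b (x, -1)) (G.b_mem.2 (by norm_num)) (same_of_pm (s := {(x, -1)})
        (fun y _ => G.o.loc y) ?_ _ ⟨_, rfl, rfl⟩)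
    rintro _ rfl
    rw [md _ (by norm_num), pm_congr (f := G.φ ∘ b) (g := b') (b := o') (y := (x, -1))
      (((isOpen_lt continuous_snd continuous_const).eventually_mem (by norm_num)).mono G.lo) rfl]
    exact Orx52.pos_trans (c' _ trivial) (same_symm c _ trivial)
  refine ⟨h1, fun y _ => ?_⟩
  have l := (Sep15.isOE_px (IsOE.of_diffeo h)).loc
  have h2 := same_pm h1 (s := {(y, 1)}) (fun y _ => G.o.loc y)
    (fun _ e => e ▸ G.b_mem.2 one_ne_zero) _ rfl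
  rw [md _ one_ne_zero, pm_congr (f := G.φ ∘ b) (g := b' ∘ px h) (b := o') (y := (y, 1))
    (((isOpen_lt continuous_const continuous_snd).eventually_mem (by norm_num)).mono G.hi) rfl, Orx52.pm_comp_ld (G.o'.loc _) (l _)] at h2
  exact (pos_of_cy ((l (y, 1)).mdifferentiableAt ne0) fun _ => rfl).1 (Orx52.pos_trans
    (same_symm (same_pm c' (fun y _ => l y) (mapsTo_univ _ univ)) _ trivial)
    (Orx52.pos_trans h2 (c _ trivial)))

/-- **two caps along the tower** -/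
theorem FT.two (hP : Clo P) (hB : BaseQ P) (hR : RegStmt) (hE : ReStmt) (hK : KillStmt)
    (h1 : PerfStmt) (h2 : FibStmt) (h3 : ColStmt) (h4 : RgbStmt) {Y : CM 3} {U : Set Y} {τ : Fm 3 Y}
    (T : FT Y U τ) : ∀ o, Ori (𝓡 3) o → ∃ β, Two P Y o β U τ := by
  induction T with
  | @base Y R Φ b oR F n hc hoR g =>
    intro o ho
    obtain ⟨Y₀, f, h, b', G, e1, e2⟩ := h2 Y R Φ b F n
    obtain ⟨a, a1, a2, a3⟩ := exists_cy G.o' ho hoR
    obtain ⟨o₀, β₀, k1, k2, k3, k4⟩ := two_prod hB ⟨oR, hoR, g⟩ f G.o a2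
    obtain ⟨A, -⟩ := id g
    have sΦ : ContMDiff (𝓡 3) (𝓡 1) ∞ fun p => (f.symm p).2 := contMDiff_snd.comp f.symm.contMDiff
    have hs : IsPreconnected G.φ.source := by
      have : G.φ.source = f '' (univ ×ˢ {cay 0}ᶜ) := by
        rw [G.src]
        ext p
        obtain ⟨q, rfl⟩ := f.surjective p
        refine ⟨fun k => ⟨q, ⟨trivial, fun e => k ⟨(q.1, 0), ⟨trivial, rfl⟩, ?_⟩⟩, rfl⟩, ?_⟩
        · exact congrArg f (Prod.ext rfl e.symm)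
        · rintro ⟨r, hr, e⟩ ⟨u, hu, e'⟩
          refine hr.2 ((congrArg Prod.snd (f.injective (e.trans e'.symm))).trans ?_)
          exact congrArg cay hu.2
      rw [this]
      exact (isPreconnected_univ.prod (Circle.isPathConnected_compl_singleton _).isConnected.2).image _
        f.continuous.continuousOn
    obtain ⟨s1, s2⟩ := same_pos hs k1 ho k2 a3 (A 0 0)
    obtain ⟨β, b1, b2, b3⟩ := h4 _ _ R _ h b' G β₀ a hc a2 s2 k4.1.1 k3
    refine ⟨β, Sd.two hP hR hE hK (ν := 0) ⟨a2, k1, ho, (h1 R oR hoR g h ?_).or a1, kl_zero a2, k2, s1,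
      k4.1, fun p _ => Line51.smAt_ang (sΦ p), subset_univ _,
      ⟨fun p => 2 * (1 / (1 + p.2 ^ 2)), fun _ => by positivity, fun x y _ => ?_⟩, subset_univ _,
      dy_cay G.o' F.sm e1 _, b3, fun p hp _ => ⟨trivial, 1, one_pos, ?_⟩⟩ a3 b1 b2 k4⟩
    · rcases a1 with rfl | rfl
      exacts [s2, neg_neg oR ▸ pos_neg s2]
    · rw [pm_cay G.o sΦ (by simp), pu, Pi.zero_apply, map_zero, add_zero]
    · have k := G.mem_of_notMem i0 hp
      rw [one_smul, Line51.pm_ang (F.sm _) ((ldp G.φ k).mdifferentiableAt ne0)]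
      exact Line51.ang_congr (eventually_of_mem (G.φ.open_source.mem_nhds k) e2)
  | @step Y Y' R b h b' G oR ν U τ U' τ' hc hoR kk kl hx cl dy ta _ ih =>
    intro o' ho'
    obtain ⟨a, a1, a2, a3⟩ := exists_cy G.o' ho' hoR
    have ka := kk.or a1
    have la : Kl a ν := a1.elim (· ▸ kl) (· ▸ kl.neg')
    obtain ⟨o, o1, o2, o3⟩ := org G.symm ho' a2 a3 (ka.symm.pos a2)
    obtain ⟨β₀, T⟩ := ih o o1
    obtain ⟨β₁, m, sp⟩ := h3 Y R o β₀ τ U a ν b hc o1 a2 G.o o2 la hx cl T.1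
    obtain ⟨β, b1, b2, b3⟩ := h4 _ _ R _ h b' G β₁ a hc a2 (ka.pos a2) m.1 sp
    obtain ⟨k, k1, k2⟩ := hx.eq
    refine ⟨β, (Sd.two hP hR hE hK (U' := slab b' (Ioo (-1) 1) ∪ U') ⟨a2, o1, ho', ka, la, o2,
      same_of_symm o3, (T.change m).1, hx.sm,
      (slab_mono b (Icc_subset_Icc (by norm_num) (by norm_num))).trans hx.sub,
      ⟨k, k1, fun x y hy => k2 x y (Ioo_subset_Ioo (by norm_num) (by norm_num) hy)⟩,
      subset_union_left, dy, b3, fun p hp hU => ta p hp (hU.resolve_left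
        (mt (G.mem_slab (G.mem_of_notMem i0 hp)).1 hp))⟩ a3 b1 b2 (T.change m)).mono
      subset_union_right⟩

end Crest.Agent.X212.H7
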